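import Vale.Agent.P046.Full.Cover.Level

/-!
P046, the exact constant, late phase: on a hypergraph without short cycles the presence chances
follow the product solution, by iterating the hierarchy over short steps of time.
-/

namespace Vale.Agent.P046.Full.Cover

open Finset

/-- The bound after `i` rounds of iteration. -/
noncomputable def picard (δ c : ℝ) (i k : ℕ) (u : ℝ) : ℝ :=
  δ * (∑ l ∈ range i, ((k + l).choose l : ℝ) * (c * u) ^ l) + ((k + i).choose i : ℝ) * (c * u) ^ i

lemma picard_mono {δ c u : ℝ} (hδ : 0 ≤ δ) (hc : 0 ≤ c) (hu : 0 ≤ u) (i k : ℕ) :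
    picard δ c i k u ≤ picard δ c i (k + 1) u := by
  have h : ∀ l, ((k + l).choose l : ℝ) ≤ ((k + 1 + l).choose l : ℝ) := fun l => by
    exact_mod_cast Nat.choose_le_choose l (by omega)
  refine add_le_add (mul_le_mul_of_nonneg_left (sum_le_sum fun l _ => ?_) hδ) ?_ <;>
    exact mul_le_mul_of_nonneg_right (h _) (by positivity)

lemma picard_nonneg {δ c u : ℝ} (hδ : 0 ≤ δ) (hc : 0 ≤ c) (hu : 0 ≤ u) (i k : ℕ) :
    0 ≤ picard δ c i k u := by
  unfold picard
  positivity

lemma choose_step (k l : ℕ) :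
    ((k + (l + 1)).choose (l + 1) : ℝ) * ((l + 1 : ℕ) : ℝ) =
      ((k + 1 + l).choose l : ℝ) * ((k : ℝ) + 1) := by
  have h := Nat.choose_succ_right_eq (k + 1 + l) l
  rw [show k + 1 + l - l = k + 1 by omega] at h
  rw [show k + (l + 1) = k + 1 + l by omega]
  exact_mod_cast h

lemma picard_hasDerivAt (δ c : ℝ) (i k : ℕ) (u : ℝ) :
    HasDerivAt (picard δ c (i + 1) k) (c * ((k : ℝ) + 1) * picard δ c i (k + 1) u) u := by
  have hp : ∀ l, HasDerivAt (fun u : ℝ => (c * u) ^ (l + 1))
      (((l + 1 : ℕ) : ℝ) * (c * u) ^ l * c) u := fun l => by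
    simpa using ((hasDerivAt_id u).const_mul c).fun_pow (l + 1)
  have hsum : HasDerivAt (fun u : ℝ => ∑ l ∈ range (i + 1), ((k + l).choose l : ℝ) * (c * u) ^ l)
      (∑ l ∈ range i, ((k + (l + 1)).choose (l + 1) : ℝ) * (((l + 1 : ℕ) : ℝ) * (c * u) ^ l * c))
      u := by
    have h := (HasDerivAt.fun_sum fun l (_ : l ∈ range i) =>
      (hp l).const_mul ((k + (l + 1)).choose (l + 1) : ℝ)).add_const
      (((k + 0).choose 0 : ℝ) * 1)
    refine h.congr_of_eventuallyEq (Filter.Eventually.of_forall fun v => ?_)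
    simp only [sum_range_succ' _ i, pow_zero]
  refine ((hsum.const_mul δ).add ((hp i).const_mul ((k + (i + 1)).choose (i + 1) : ℝ))).congr_deriv ?_
  have e : ∀ l, ((k + (l + 1)).choose (l + 1) : ℝ) * (((l + 1 : ℕ) : ℝ) * (c * u) ^ l * c) =
      c * ((k : ℝ) + 1) * (((k + 1 + l).choose l : ℝ) * (c * u) ^ l) := fun l => by
    have := choose_step k l
    linear_combination (c * u) ^ l * c * this
  rw [Finset.sum_congr rfl fun l _ => e l, e i, ← Finset.mul_sum, picard]
  ring

lemma picard_le {δ c u : ℝ} (hδ : 0 ≤ δ) (hc : 0 ≤ c) (hu : 0 ≤ u) (hcu : c * u ≤ 1 / 4)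
    {K k i : ℕ} (hk : k ≤ K) :
    picard δ c i k u ≤ 2 ^ K * (2 * δ + (1 / 2) ^ i) := by
  have hterm : ∀ l, ((k + l).choose l : ℝ) * (c * u) ^ l ≤ 2 ^ K * (1 / 2) ^ l := fun l => by
    have h1 : ((k + l).choose l : ℝ) ≤ 2 ^ K * 2 ^ l := by
      rw [← pow_add]
      calc ((k + l).choose l : ℝ) ≤ ((2 ^ (k + l) : ℕ) : ℝ) := by
            exact_mod_cast Nat.choose_le_two_pow (k + l) l
        _ ≤ 2 ^ (K + l) := by
            push_cast
            exact pow_le_pow_right₀ (by norm_num) (by omega)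
    calc ((k + l).choose l : ℝ) * (c * u) ^ l ≤ 2 ^ K * 2 ^ l * (1 / 4) ^ l :=
          mul_le_mul h1 (pow_le_pow_left₀ (mul_nonneg hc hu) hcu l) (by positivity) (by positivity)
      _ = 2 ^ K * (1 / 2) ^ l := by
          rw [mul_assoc, ← mul_pow]
          norm_num
  have hs : ∑ l ∈ range i, ((k + l).choose l : ℝ) * (c * u) ^ l ≤ 2 ^ K * 2 := by
    refine (sum_le_sum fun l _ => hterm l).trans ?_
    rw [← Finset.mul_sum]
    exact mul_le_mul_of_nonneg_left (sum_geometric_two_le i) (by positivity)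
  calc picard δ c i k u ≤ δ * (2 ^ K * 2) + 2 ^ K * (1 / 2) ^ i :=
        add_le_add (mul_le_mul_of_nonneg_left hs hδ) (hterm i)
    _ = 2 ^ K * (2 * δ + (1 / 2) ^ i) := by ring

variable {V : Type} [Fintype V] [DecidableEq V] {T : Finset (Finset V)} {U : Finset V} {a : V}
  {J : V → Finset V → ℝ → ℝ} {R Dm : ℕ}

/-- One short step of time: `j` rounds of iteration. -/
lemma step_bound (h3 : ∀ F ∈ T, F.card = 3) (hU : ∀ F ∈ T, F ⊆ U) (hdeg : ∀ b ∈ U, hdeg T b ≤ Dm)
    (ha : a ∈ U) (ht : htree T R a) (hJ : IsHCav T J) {s δ : ℝ} (hs : 0 ≤ s) (hδ : 0 ≤ δ) {L : ℕ}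
    (hR : L + 2 ≤ R)
    (hstart : ∀ k A, k ≤ L → Grown T a k A → |present T U A s - product T J A s| ≤ δ) :
    ∀ i k A, k + i ≤ L → Grown T a k A → ∀ u : ℝ, 0 ≤ u →
      |present T U A (s + u) - product T J A (s + u)| ≤ picard δ (2 * (Dm : ℝ)) i k u := by
  intro i
  induction i with
  | zero =>
    intro k A _ _ u hu
    have h1 := present_mem (T := T) (U := U) A (show 0 ≤ s + u by linarith)
    have h2 := product_mem hJ (show 0 ≤ s + u by linarith) A
    simp only [picard, range_zero, sum_empty, mul_zero, zero_add, Nat.choose_zero_right,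
      Nat.cast_one, pow_zero, mul_one]
    rw [abs_le]
    constructor <;> linarith [h1.1, h1.2, h2.1, h2.2]
  | succ i ih =>
    intro k A hk hg u hu
    set f' : ℝ → ℝ := fun v =>
      -∑ F ∈ meets T A, present T U (A ∪ F) v - -∑ F ∈ meets T A, product T J (A ∪ F) v
    have hd : ∀ v ∈ Set.Ici s, HasDerivWithinAt (fun v => present T U A v - product T J A v)
        (f' v) (Set.Ici 0) v := fun v hv =>
      (present_hasDerivAt A v).hasDerivWithinAt.sub
        (product_hasDeriv hJ h3 ht hg (by omega) (hs.trans hv))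
    have hB : ∀ v, HasDerivAt (fun v => picard δ (2 * (Dm : ℝ)) (i + 1) k (v - s))
        (2 * (Dm : ℝ) * ((k : ℝ) + 1) * picard δ (2 * (Dm : ℝ)) i (k + 1) (v - s)) v := fun v =>
      (picard_hasDerivAt δ _ i k (v - s)).comp_sub_const v s
    have hbound : ∀ v ∈ Set.Ico s (s + u), ‖f' v‖ ≤
        2 * (Dm : ℝ) * ((k : ℝ) + 1) * picard δ (2 * (Dm : ℝ)) i (k + 1) (v - s) := by
      intro v hv
      have hvs : 0 ≤ v - s := sub_nonneg.2 hv.1
      have hF : ∀ F ∈ meets T A, |present T U (A ∪ F) v - product T J (A ∪ F) v| ≤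
          picard δ (2 * (Dm : ℝ)) i (k + 1) (v - s) := fun F hF => by
        obtain ⟨hFT, hFd⟩ := mem_filter.1 hF
        by_cases hn : F ⊆ A
        · rw [union_eq_left.2 hn]
          have := ih k A (by omega) hg (v - s) hvs
          rw [add_sub_cancel] at this
          exact this.trans (picard_mono hδ (by positivity) hvs i k)
        · have := ih (k + 1) (A ∪ F) (by omega) (hg.step hFT hFd hn) (v - s) hvs
          rwa [add_sub_cancel] at this
      have hcard : ((meets T A).card : ℝ) ≤ 2 * (Dm : ℝ) * ((k : ℝ) + 1) := by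
        have h1 := (card_meets_le (hg.subset hU ha) hdeg).trans
          (Nat.mul_le_mul_right Dm (hg.card_le h3))
        have h2 : ((meets T A).card : ℝ) ≤ ((2 * k + 1) * Dm : ℕ) := by exact_mod_cast h1
        push_cast at h2
        nlinarith [Nat.cast_nonneg (α := ℝ) Dm]
      simp only [f', Real.norm_eq_abs]
      rw [neg_sub_neg, ← Finset.sum_sub_distrib]
      refine (Finset.abs_sum_le_sum_abs _ _).trans ((Finset.sum_le_card_nsmul _ _
        (picard δ (2 * (Dm : ℝ)) i (k + 1) (v - s)) fun F hF' => ?_).trans ?_)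
      · rw [abs_sub_comm]
        exact hF F hF'
      · rw [nsmul_eq_mul]
        exact mul_le_mul_of_nonneg_right hcard (picard_nonneg hδ (by positivity) hvs _ _)
    have hstart' : ‖present T U A s - product T J A s‖ ≤
        picard δ (2 * (Dm : ℝ)) (i + 1) k (s - s) := by
      rw [Real.norm_eq_abs, sub_self]
      refine (hstart k A (by omega) hg).trans (le_of_eq ?_)
      simp [picard, sum_range_succ', zero_pow]
    have := image_norm_le_of_norm_deriv_right_le_deriv_boundary
      (f := fun v => present T U A v - product T J A v) (a := s) (b := s + u)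
      (fun v hv => ((hd v hv.1).mono fun w hw => hs.trans hw.1).continuousWithinAt)
      (fun v hv => (hd v hv.1).mono fun w hw => (hs.trans hv.1).trans hw)
      hstart' hB hbound (Set.right_mem_Icc.2 (by linarith))
    simpa using this

/-- Finitely many steps. -/
lemma steps_bound (Dm : ℕ) : ∀ (m K : ℕ) (η : ℝ), 0 < η → ∃ M : ℕ, ∀ R, M ≤ R →
    ∀ (V : Type) [Fintype V] [DecidableEq V] (T : Finset (Finset V)) (U : Finset V) (a : V)
      (J : V → Finset V → ℝ → ℝ),
    (∀ F ∈ T, F.card = 3) → (∀ F ∈ T, F ⊆ U) → (∀ b ∈ U, hdeg T b ≤ Dm) → a ∈ U → htree T R a →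
    IsHCav T J → ∀ u : ℝ, 0 ≤ u → u ≤ (m : ℝ) / (8 * ((Dm : ℝ) + 1)) → ∀ k A, k ≤ K →
      Grown T a k A → |present T U A u - product T J A u| ≤ η := by
  intro m
  induction m with
  | zero =>
    intro K η hη
    refine ⟨0, fun R _ V _ _ T U a J h3 hU hdeg ha ht hJ u hu0 hu k A hk hg => ?_⟩
    obtain rfl : u = 0 := le_antisymm (by simpa using hu) hu0
    rw [present_zero (hg.subset hU ha), product_zero hJ, sub_self, abs_zero]
    exact hη.le
  | succ m ih =>
    intro K η hη
    obtain ⟨j, hj⟩ := exists_pow_lt_of_lt_one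
      (show (0 : ℝ) < η / (2 * 2 ^ K) by positivity) (show (1 / 2 : ℝ) < 1 by norm_num)
    set δ : ℝ := η / (4 * 2 ^ K) with hδdef
    have hδ : 0 < δ := by positivity
    obtain ⟨M, hM⟩ := ih (K + j) δ hδ
    refine ⟨max M (K + j + 2), fun R hR V _ _ T U a J h3 hU hdeg ha ht hJ u hu0 hu k A hk hg => ?_⟩
    have hRM : M ≤ R := (le_max_left _ _).trans hR
    have hRK : K + j + 2 ≤ R := (le_max_right _ _).trans hR
    have hδη : δ ≤ η := by
      rw [hδdef, div_le_iff₀ (by positivity)]
      nlinarith [one_le_pow₀ (one_le_two : (1 : ℝ) ≤ 2) (n := K)]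
    set s : ℝ := (m : ℝ) / (8 * ((Dm : ℝ) + 1)) with hsdef
    have hs : 0 ≤ s := by positivity
    rcases le_or_gt u s with hus | hus
    · exact (hM R hRM V T U a J h3 hU hdeg ha ht hJ u hu0 hus k A (by omega) hg).trans hδη
    have hb := step_bound h3 hU hdeg ha ht hJ hs hδ.le (L := K + j) hRK
      (fun k A hk hg => hM R hRM V T U a J h3 hU hdeg ha ht hJ s hs le_rfl k A hk hg)
      j k A (by omega) hg (u - s) (by linarith)
    rw [add_sub_cancel] at hb
    have hcu : 2 * (Dm : ℝ) * (u - s) ≤ 1 / 4 := by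
      have h1 : u - s ≤ 1 / (8 * ((Dm : ℝ) + 1)) := by
        rw [hsdef]
        push_cast [add_div] at hu
        linarith
      rw [le_div_iff₀ (by positivity)] at h1
      have h2 : 0 ≤ u - s := by linarith
      nlinarith [Nat.cast_nonneg (α := ℝ) Dm]
    refine hb.trans ((picard_le hδ.le (by positivity) (by linarith) hcu hk).trans ?_)
    have e1 : (2 : ℝ) ^ K * (2 * δ) = η / 2 := by
      rw [hδdef]
      field_simp
      ring
    have e2 : (2 : ℝ) ^ K * (1 / 2) ^ j ≤ η / 2 := by
      rw [lt_div_iff₀ (by positivity)] at hj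
      nlinarith
    linarith

/-- On a hypergraph without short cycles removal follows the cavity system. -/
theorem hierarchy : HierarchyStmt := by
  intro t ε Dm ht hε
  obtain ⟨M, hM⟩ := steps_bound Dm ⌈t * (8 * ((Dm : ℝ) + 1))⌉₊ 0 ε hε
  refine ⟨max M 1, fun V _ _ T U hlin hU hdeg htree' J hJ a ha => ?_⟩
  have h := hM (max M 1) (le_max_left _ _) V T U a J hlin.1 hU hdeg ha (htree' a ha) hJ t ht.le
    (by rw [le_div_iff₀ (by positivity)]; exact Nat.le_ceil _) 0 {a} le_rfl Grown.zero
  have hno : ∀ F ∈ T, ¬F ⊆ ({a} : Finset V) := fun F hF hs => by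
    have := card_le_card hs
    rw [hlin.1 F hF, card_singleton] at this
    omega
  have hp : present T U {a} t = semi (hstep T) t (fun H => if a ∈ H then (1 : ℝ) else 0) U := by
    unfold present indA
    simp only [singleton_subset_iff]
  have hq : product T J {a} t = ∏ F ∈ T.filter (fun F => a ∈ F), (1 - J a F t) := by
    have hinner : inner T ({a} : Finset V) = ∅ := filter_eq_empty_iff.2 hno
    rw [product, hinner, card_empty, Nat.cast_zero, neg_zero, zero_mul, Real.exp_zero, one_mul,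
      survival]
    refine Finset.prod_bij (fun p _ => p.2) ?_ ?_ ?_ ?_
    · intro p hp
      obtain ⟨hpA, hpT, hpF, -⟩ := outs_mem hp
      exact mem_filter.2 ⟨hpT, mem_singleton.1 hpA ▸ hpF⟩
    · intro p hp p' hp' he
      exact Prod.ext ((mem_singleton.1 (outs_mem hp).1).trans (mem_singleton.1 (outs_mem hp').1).symm) he
    · intro F hF
      obtain ⟨hFT, haF⟩ := mem_filter.1 hF
      exact ⟨(a, F), mem_filter.2 ⟨mem_product.2 ⟨mem_singleton_self a, hFT⟩, haF, hno F hFT⟩, rfl⟩
    · intro p hp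
      rw [mem_singleton.1 (outs_mem hp).1]
  rw [hp, hq] at h
  exact h

end Vale.Agent.P046.Full.Cover
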