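import Mathlib

/-!
Permutations of short words: for every letter an involution, so that a short word without equal
neighbouring letters moves the empty word to itself spelled out.
-/

namespace Vale.Agent.P046.Full.Cover

variable {ι : Type} [DecidableEq ι] {L : ℕ}

/-- Words of length at most `L` without equal neighbouring letters. -/
abbrev Word (ι : Type) (L : ℕ) : Type := {l : List ι // l.IsChain (· ≠ ·) ∧ l.length ≤ L}

noncomputable instance [Finite ι] : Fintype (Word ι L) :=
  have : Finite (Word ι L) :=
    ((List.finite_length_le ι L).subset fun _ h => h.2).to_subtype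
  Fintype.ofFinite _

/-- Removes the letter `x` from the front or puts it there. -/
def flip (L : ℕ) (x : ι) (w : List ι) : List ι :=
  if w.head? = some x then w.tail else if w.length < L then x :: w else w

lemma flip_spec (x : ι) {w : List ι} (hw : w.IsChain (· ≠ ·) ∧ w.length ≤ L) :
    ((flip L x w).IsChain (· ≠ ·) ∧ (flip L x w).length ≤ L) ∧ flip L x (flip L x w) = w := by
  obtain ⟨hc, hl⟩ := hw
  rcases w with _ | ⟨y, w⟩
  · by_cases h : 0 < L
    · have : flip L x [] = [x] := by simp [flip, h]
      rw [this]
      exact ⟨⟨List.isChain_singleton x, h⟩, by simp [flip]⟩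
    · have : flip L x [] = [] := by simp [flip, h]
      rw [this]
      exact ⟨⟨List.isChain_nil, Nat.zero_le _⟩, this⟩
  · have hlw : w.length < L := by simpa using hl
    by_cases hy : y = x
    · subst hy
      have : flip L y (y :: w) = w := by simp [flip]
      rw [this]
      refine ⟨⟨hc.tail, hlw.le⟩, ?_⟩
      rcases w with _ | ⟨z, w⟩
      · have h0 : 0 < L := hlw
        simp [flip, h0]
      · have hne : y ≠ z := (List.isChain_cons_cons.1 hc).1
        simp [flip, Ne.symm hne, show w.length + 1 < L by simpa using hlw]
    · by_cases h : (y :: w).length < L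
      · have : flip L x (y :: w) = x :: y :: w := by
          simp [flip, hy, show w.length + 1 < L by simpa using h]
        rw [this]
        exact ⟨⟨hc.cons_cons (Ne.symm hy), Nat.succ_le_of_lt h⟩, by simp [flip]⟩
      · have : flip L x (y :: w) = y :: w := by
          simp only [flip, List.head?_cons, Option.some.injEq, hy, if_false, h]
        rw [this]
        exact ⟨⟨hc, hl⟩, this⟩

/-- The involution of a letter. -/
def flipPerm (L : ℕ) (x : ι) : Equiv.Perm (Word ι L) :=
  Function.Involutive.toPerm (fun w => ⟨flip L x w.1, (flip_spec x w.2).1⟩)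
    fun w => Subtype.ext (flip_spec x w.2).2

lemma flipPerm_mul_self (x : ι) : flipPerm L x * flipPerm L x = 1 :=
  Equiv.ext fun w => Subtype.ext (flip_spec x w.2).2

/-- The empty word. -/
def emptyWord (ι : Type) (L : ℕ) : Word ι L := ⟨[], List.isChain_nil, Nat.zero_le _⟩

/-- The product of the involutions along a word. -/
def wordPerm (L : ℕ) (w : List ι) : Equiv.Perm (Word ι L) := (w.map (flipPerm L)).prod

lemma wordPerm_cons (x : ι) (w : List ι) : wordPerm L (x :: w) = flipPerm L x * wordPerm L w := by
  simp [wordPerm]

lemma wordPerm_empty : ∀ {w : List ι}, w.IsChain (· ≠ ·) → w.length ≤ L →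
    (wordPerm L w (emptyWord ι L)).1 = w
  | [], _, _ => rfl
  | x :: w, hc, hl => by
    rw [wordPerm_cons, Equiv.Perm.mul_apply]
    show flip L x (wordPerm L w (emptyWord ι L)).1 = x :: w
    rw [wordPerm_empty (w := w) hc.tail (Nat.le_of_succ_le hl)]
    have hne : w.head? ≠ some x := by
      rcases w with _ | ⟨y, w⟩
      · simp
      · simpa using Ne.symm (List.isChain_cons_cons.1 hc).1
    simp [flip, hne, show w.length < L from hl]

lemma wordPerm_injective {w w' : List ι} (hc : w.IsChain (· ≠ ·)) (hl : w.length ≤ L)
    (hc' : w'.IsChain (· ≠ ·)) (hl' : w'.length ≤ L) (h : wordPerm L w = wordPerm L w') :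
    w = w' := by
  rw [← wordPerm_empty hc hl, h, wordPerm_empty hc' hl']

end Vale.Agent.P046.Full.Cover
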