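import Vale.Agent.P046.Full.Cover.Ball
import Vale.Agent.P046.Full.Cover.Words

/-!
P046, the exact constant, late phase: the cover of a hypergraph by permutations of short words, and
the walks that parametrise its balls.
-/

namespace Vale.Agent.P046.Full.Cover

open Finset

set_option linter.unusedSectionVars false

variable {V : Type} [Fintype V] [DecidableEq V] {L N : ℕ}

/-- The group of the cover. -/
abbrev Volt (V : Type) [DecidableEq V] (L : ℕ) : Type := Equiv.Perm (Word (V × Finset V) L)

/-- The copy of `F` of index `γ`. -/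
noncomputable def lift (e : V × Volt V L ≃ Fin N) (F : Finset V) (γ : Volt V L) : Finset (Fin N) :=
  F.image (fun x => e (x, flipPerm L (x, F) * γ))

/-- All copies of all hyperedges. -/
noncomputable def lifts (e : V × Volt V L ≃ Fin N) (T : Finset (Finset V)) : Finset (Finset (Fin N)) :=
  (T ×ˢ (univ : Finset (Volt V L))).image (fun p => lift e p.1 p.2)

/-- The projection of the cover. -/
def proj (e : V × Volt V L ≃ Fin N) (i : Fin N) : V := (e.symm i).1

variable {e : V × Volt V L ≃ Fin N} {T : Finset (Finset V)} {F F' : Finset V} {γ γ' : Volt V L}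

lemma mem_lift {i : Fin N} :
    i ∈ lift e F γ ↔ ∃ x ∈ F, e (x, flipPerm L (x, F) * γ) = i := mem_image

lemma mem_lifts {E : Finset (Fin N)} : E ∈ lifts e T ↔ ∃ F ∈ T, ∃ γ, lift e F γ = E := by
  simp [lifts]

lemma proj_image_lift : (lift e F γ).image (proj e) = F := by
  simp [lift, Finset.image_image, Function.comp_def, proj]

lemma card_lift : (lift e F γ).card = F.card :=
  card_image_of_injective _ fun _ _ h => congrArg Prod.fst (e.injective h)

lemma lift_inj_of_mem {i : Fin N} (h : i ∈ lift e F γ) (h' : i ∈ lift e F γ') : γ = γ' := by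
  obtain ⟨x, -, hx⟩ := mem_lift.1 h
  obtain ⟨y, -, hy⟩ := mem_lift.1 h'
  obtain ⟨h1, h2⟩ := Prod.ext_iff.1 (e.injective (hx.trans hy.symm))
  dsimp only at h1 h2
  subst h1
  exact mul_left_cancel h2

lemma linear3_lifts (hT : Linear3 T) : Linear3 (lifts e T) := by
  refine ⟨fun E hE => ?_, fun E hE E' hE' hne => ?_⟩
  · obtain ⟨F, hF, γ, rfl⟩ := mem_lifts.1 hE
    rw [card_lift]
    exact hT.1 F hF
  · obtain ⟨F, hF, γ, rfl⟩ := mem_lifts.1 hE
    obtain ⟨F', hF', γ', rfl⟩ := mem_lifts.1 hE'
    by_cases hFF : F = F'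
    · subst hFF
      refine (card_eq_zero.2 (Finset.eq_empty_of_forall_notMem fun i hi => hne ?_)).le.trans
        (Nat.zero_le 1)
      rw [lift_inj_of_mem (mem_inter.1 hi).1 (mem_inter.1 hi).2]
    · refine le_trans (card_le_card_of_injOn (proj e) (fun i hi => ?_) ?_) (hT.2 F hF F' hF' hFF)
      · obtain ⟨h1, h2⟩ := mem_inter.1 hi
        refine mem_inter.2 ⟨?_, ?_⟩
        · rw [← proj_image_lift (e := e) (F := F) (γ := γ)]
          exact mem_image_of_mem _ h1
        · rw [← proj_image_lift (e := e) (F := F') (γ := γ')]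
          exact mem_image_of_mem _ h2
      · intro i hi j hj hij
        obtain ⟨x, -, rfl⟩ := mem_lift.1 (mem_inter.1 hi).1
        obtain ⟨y, -, rfl⟩ := mem_lift.1 (mem_inter.1 hj).1
        simp only [proj, Equiv.symm_apply_apply] at hij
        rw [hij]

/-- Reduced incidence words of walks from `a`, with their end. -/
inductive Walk (T : Finset (Finset V)) (a : V) : List (V × Finset V) → V → Prop
  | nil : Walk T a [] a
  | step {w : List (V × Finset V)} {b c : V} {F : Finset V} : Walk T a w b → F ∈ T → b ∈ F →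
      c ∈ F → c ≠ b → (∀ h ∈ w.head?, h.2 ≠ F) → Walk T a ((c, F) :: (b, F) :: w) c

variable {a : V} {w w' : List (V × Finset V)} {b c : V}

lemma Walk.chain (h : Walk T a w b) : w.IsChain (· ≠ ·) := by
  induction h with
  | nil => exact List.isChain_nil
  | step _ _ _ _ hne hh ih =>
    refine List.isChain_cons_cons.2 ⟨fun he => hne (congrArg Prod.fst he), ?_⟩
    exact List.isChain_cons.2 ⟨fun y hy he => hh y hy (congrArg Prod.snd he).symm, ih⟩

/-- The point of the cover at the end of a walk from `g`. -/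
noncomputable def pt (e : V × Volt V L ≃ Fin N) (g : Volt V L) (w : List (V × Finset V)) (c : V) :
    Fin N :=
  e (c, wordPerm L w * g)

variable {g : Volt V L}

lemma pt_inj (h : Walk T a w b) (h' : Walk T a w' c) (hl : w.length ≤ L) (hl' : w'.length ≤ L)
    (he : pt e g w b = pt e g w' c) : w = w' ∧ b = c := by
  obtain ⟨h1, h2⟩ := Prod.ext_iff.1 (e.injective he)
  exact ⟨wordPerm_injective h.chain hl h'.chain hl' (mul_right_cancel h2), h1⟩

/-- The copy of `F` through the end of a walk. -/
noncomputable def next (e : V × Volt V L ≃ Fin N) (g : Volt V L) (w : List (V × Finset V)) (b : V)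
    (F : Finset V) : Finset (Fin N) :=
  lift e F (flipPerm L (b, F) * (wordPerm L w * g))

lemma pt_mem_next (hb : b ∈ F) : pt e g w b ∈ next e g w b F :=
  mem_lift.2 ⟨b, hb, by rw [← mul_assoc, flipPerm_mul_self, one_mul]; rfl⟩

lemma pt_step_mem_next (hc : c ∈ F) : pt e g ((c, F) :: (b, F) :: w) c ∈ next e g w b F :=
  mem_lift.2 ⟨c, hc, by simp only [pt, wordPerm_cons, mul_assoc]⟩

lemma next_mem_lifts (hF : F ∈ T) : next e g w b F ∈ lifts e T := mem_lifts.2 ⟨F, hF, _, rfl⟩

/-- Short walks end in the ball. -/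
lemma pt_mem_ball (h : Walk T a w b) :
    ∀ R, w.length ≤ 2 * R → pt e g w b ∈ hpts (lifts e T) (e (a, g)) R := by
  induction h with
  | nil =>
    intro R _
    have : pt e g [] a = e (a, g) := by simp [pt, wordPerm]
    rw [this]
    exact root_mem_hpts R
  | @step w b c F _ hF hb hc _ _ ih =>
    intro R hl
    rcases R with _ | R
    · simp at hl
    · exact subset_hpts_of_mem (mem_htris_succ.2 ⟨next_mem_lifts hF, _, pt_mem_next hb,
        ih R (by simp only [List.length_cons] at hl; omega)⟩) (pt_step_mem_next hc)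

/-- An end of a walk in a copy of `F` makes the copy the next one after some walk, no longer. -/
lemma exists_parent (h : Walk T a w b) (hF : F ∈ T) (hi : pt e g w b ∈ lift e F γ) :
    ∃ w' b', Walk T a w' b' ∧ w'.length ≤ w.length ∧ (∀ x ∈ w'.head?, x.2 ≠ F) ∧ b' ∈ F ∧
      lift e F γ = next e g w' b' F := by
  obtain ⟨x, hx, hxe⟩ := mem_lift.1 hi
  obtain ⟨h1, h2⟩ := Prod.ext_iff.1 (e.injective hxe)
  dsimp only at h1 h2
  subst h1
  have hγ : γ = flipPerm L (x, F) * (wordPerm L w * g) := by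
    rw [← h2, ← mul_assoc, flipPerm_mul_self, one_mul]
  cases h with
  | nil => exact ⟨[], _, Walk.nil, le_rfl, by simp, hx, by rw [next, hγ]⟩
  | @step w b₀ _ F₀ hw hF₀ hb hc hne hh =>
    by_cases hFF : F₀ = F
    · subst hFF
      refine ⟨w, b₀, hw, by simp only [List.length_cons]; omega, hh, hb, ?_⟩
      rw [next, hγ, wordPerm_cons, wordPerm_cons, mul_assoc, ← mul_assoc (flipPerm L (x, F₀)),
        flipPerm_mul_self, one_mul, mul_assoc]
    · refine ⟨_, x, Walk.step hw hF₀ hb hc hne hh, le_rfl, ?_, hx, by rw [next, hγ]⟩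
      intro y hy
      simp only [List.head?_cons, Option.mem_def, Option.some.injEq] at hy
      subst hy
      exact hFF

/-- The ball consists of the ends of short walks. -/
lemma ball_subset : ∀ R, ∀ i ∈ hpts (lifts e T) (e (a, g)) R,
    ∃ w b, Walk T a w b ∧ w.length ≤ 2 * R ∧ i = pt e g w b := by
  intro R
  induction R with
  | zero =>
    intro i hi
    refine ⟨[], a, Walk.nil, le_rfl, ?_⟩
    simp only [hpts_zero, mem_singleton] at hi
    simp [hi, pt, wordPerm]
  | succ R ih =>
    intro i hi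
    rw [hpts_succ, mem_union, mem_biUnion] at hi
    rcases hi with hi | ⟨E, hE, hiE⟩
    · obtain ⟨w, b, hw, hl, rfl⟩ := ih i hi
      exact ⟨w, b, hw, by omega, rfl⟩
    · obtain ⟨hET, j, hj, hjR⟩ := mem_htris_succ.1 hE
      obtain ⟨F, hF, γ, rfl⟩ := mem_lifts.1 hET
      obtain ⟨w, b, hw, hl, rfl⟩ := ih j hjR
      obtain ⟨w', b', hw', hl', hh, hb', heq⟩ := exists_parent hw hF hj
      rw [id, heq] at hiE
      obtain ⟨c, hc, hce⟩ := mem_lift.1 hiE
      by_cases hcb : c = b'
      · subst hcb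
        refine ⟨w', c, hw', by omega, ?_⟩
        rw [← hce, pt, ← mul_assoc, flipPerm_mul_self, one_mul]
      · refine ⟨_, c, Walk.step hw' hF hb' hc hcb hh, by simp only [List.length_cons]; omega, ?_⟩
        rw [← hce, pt, wordPerm_cons, wordPerm_cons, mul_assoc, mul_assoc]

/-- `i` is one of the two points that the hyperedge `E` adds to the ball of radius `R`. -/
def Child (e : V × Volt V L ≃ Fin N) (T : Finset (Finset V)) (a : V) (g : Volt V L) (R : ℕ)
    (E : Finset (Fin N)) (i : Fin N) : Prop :=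
  ∃ w b c F, Walk T a w b ∧ w.length + 2 ≤ 2 * R ∧ (∀ x ∈ w.head?, x.2 ≠ F) ∧ F ∈ T ∧ b ∈ F ∧
    c ∈ F ∧ c ≠ b ∧ E = next e g w b F ∧ i = pt e g ((c, F) :: (b, F) :: w) c

/-- The balls of the cover are hypertrees. -/
lemma htree_lifts (hT : Linear3 T) {M : ℕ} (hL : 2 * M ≤ L) (a : V) (g : Volt V L) :
    htree (lifts e T) M (e (a, g)) := by
  classical
  set P := hpts (lifts e T) (e (a, g)) M
  set S := htris (lifts e T) (e (a, g)) M
  have huniq : ∀ {E E' : Finset (Fin N)} {i : Fin N},
      Child e T a g M E i → Child e T a g M E' i → E = E' := by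
    rintro E E' i ⟨w, b, c, F, hw, hl, hh, hF, hb, hc, hcb, rfl, rfl⟩
      ⟨w', b', c', F', hw', hl', hh', hF', hb', hc', hcb', rfl, he⟩
    obtain ⟨hlist, -⟩ := pt_inj (Walk.step hw hF hb hc hcb hh) (Walk.step hw' hF' hb' hc' hcb' hh')
      (by simp only [List.length_cons]; omega) (by simp only [List.length_cons]; omega) he
    simp only [List.cons.injEq, Prod.mk.injEq] at hlist
    obtain ⟨⟨-, rfl⟩, ⟨rfl, -⟩, rfl⟩ := hlist
    rfl
  have hroot : ∀ E, ¬Child e T a g M E (e (a, g)) := by
    rintro E ⟨w, b, c, F, hw, hl, hh, hF, hb, hc, hcb, rfl, he⟩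
    have h0 : e (a, g) = pt e g [] a := by simp [pt, wordPerm]
    rw [h0] at he
    obtain ⟨hlist, -⟩ := pt_inj Walk.nil (Walk.step hw hF hb hc hcb hh) (Nat.zero_le _)
      (by simp only [List.length_cons]; omega) he
    exact List.cons_ne_nil _ _ hlist.symm
  -- every hyperedge of the ball has exactly two children
  have htwo : ∀ E ∈ S, (E.filter (Child e T a g M E)).card = 2 := by
    intro E hE
    obtain ⟨R, hR⟩ : ∃ R, M = R + 1 := by
      rcases M with _ | R
      · simp [S, htris_zero] at hE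
      · exact ⟨R, rfl⟩
    have hE' : E ∈ htris (lifts e T) (e (a, g)) (R + 1) := hR ▸ hE
    obtain ⟨hET, j, hj, hjR⟩ := mem_htris_succ.1 hE'
    obtain ⟨F, hF, γ, rfl⟩ := mem_lifts.1 hET
    obtain ⟨w, b, hw, hl, rfl⟩ := ball_subset R j hjR
    obtain ⟨w', b', hw', hl', hh, hb', heq⟩ := exists_parent hw hF hj
    have hfilter : (lift e F γ).filter (Child e T a g M (lift e F γ)) =
        (lift e F γ).erase (pt e g w' b') := by
      ext i
      rw [mem_filter, mem_erase]
      refine ⟨fun ⟨hi, hc⟩ => ⟨?_, hi⟩, fun ⟨hne, hi⟩ => ⟨hi, ?_⟩⟩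
      · rintro rfl
        obtain ⟨v, x, y, G, hv, hvl, hvh, hG, hx, hy, hyx, hEq, he⟩ := hc
        obtain ⟨hlist, -⟩ := pt_inj hw' (Walk.step hv hG hx hy hyx hvh) (by omega)
          (by simp only [List.length_cons]; omega) he
        have hFG : F = G := by
          have := congrArg (Finset.image (proj e)) hEq
          rwa [proj_image_lift, next, proj_image_lift] at this
        subst hlist
        exact hh (y, G) (by simp) hFG.symm
      · have hi' := hi
        rw [heq] at hi'
        obtain ⟨c, hc, hce⟩ := mem_lift.1 hi'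
        have hcb : c ≠ b' := by
          rintro rfl
          exact hne (by rw [← hce, pt, ← mul_assoc, flipPerm_mul_self, one_mul])
        exact ⟨w', b', c, F, hw', by omega, hh, hF, hb', hc, hcb, heq, by
          rw [← hce, pt, wordPerm_cons, wordPerm_cons, mul_assoc, mul_assoc]⟩
    rw [hfilter, card_erase_of_mem (heq ▸ pt_mem_next hb'), card_lift, hT.1 F hF]
  have hP : P = insert (e (a, g)) (S.biUnion fun E => E.filter (Child e T a g M E)) := by
    ext i
    rw [mem_insert, mem_biUnion]
    constructor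
    · intro hi
      obtain ⟨w, b, hw, hl, rfl⟩ := ball_subset M i hi
      cases hw with
      | nil => exact Or.inl (by simp [pt, wordPerm])
      | @step w b₀ _ F hw' hF hb hc hne hh =>
        right
        simp only [List.length_cons] at hl
        obtain ⟨R, hR⟩ : ∃ R, M = R + 1 := ⟨M - 1, by omega⟩
        refine ⟨next e g w b₀ F, ?_, mem_filter.2 ⟨pt_step_mem_next hc,
          ⟨w, b₀, b, F, hw', by omega, hh, hF, hb, hc, hne, rfl, rfl⟩⟩⟩
        show next e g w b₀ F ∈ htris (lifts e T) (e (a, g)) M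
        rw [hR]
        exact mem_htris_succ.2 ⟨next_mem_lifts hF, _, pt_mem_next hb,
          pt_mem_ball hw' R (by omega)⟩
    · rintro (rfl | ⟨E, hE, hi⟩)
      · exact root_mem_hpts M
      · exact subset_hpts_of_mem hE (mem_filter.1 hi).1
  show P.card = 2 * S.card + 1
  rw [hP, card_insert_of_notMem, card_biUnion]
  · rw [Finset.sum_congr rfl htwo, sum_const, smul_eq_mul, mul_comm]
  · intro E _ E' _ hne
    exact Finset.disjoint_left.2 fun i hi hi' =>
      hne (huniq (mem_filter.1 hi).2 (mem_filter.1 hi').2)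
  · rw [mem_biUnion]
    rintro ⟨E, -, hi⟩
    exact hroot E (mem_filter.1 hi).2

/-- Finite covers without short cycles. -/
theorem cover : CoverStmt := by
  intro V _ _ T U hT hU M
  set L := 2 * M
  let e : V × Volt V L ≃ Fin (Fintype.card (V × Volt V L)) := Fintype.equivFin _
  refine ⟨_, Fintype.card (Volt V L), proj e, lifts e T,
    (U ×ˢ (univ : Finset (Volt V L))).map e.toEmbedding, Fintype.card_pos, linear3_lifts hT,
    ?_, ?_, ?_, ?_, ?_, ?_⟩
  · intro E hE i hi
    obtain ⟨F, hF, γ, rfl⟩ := mem_lifts.1 hE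
    obtain ⟨x, hx, rfl⟩ := mem_lift.1 hi
    exact mem_map.2 ⟨_, mem_product.2 ⟨hU F hF hx, mem_univ _⟩, rfl⟩
  · intro i hi
    obtain ⟨⟨x, γ⟩, hp, rfl⟩ := mem_map.1 hi
    simpa [proj] using (mem_product.1 hp).1
  · intro a ha
    have : ((U ×ˢ (univ : Finset (Volt V L))).map e.toEmbedding).filter (fun i => proj e i = a) =
        (univ : Finset (Volt V L)).image (fun γ => e (a, γ)) := by
      ext i
      rw [Finset.mem_filter, Finset.mem_image]
      constructor
      · rintro ⟨hi, h⟩
        obtain ⟨⟨x, γ⟩, -, rfl⟩ := mem_map.1 hi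
        simp only [proj, Equiv.coe_toEmbedding, Equiv.symm_apply_apply] at h
        exact ⟨γ, mem_univ _, by rw [← h]; rfl⟩
      · rintro ⟨γ, -, rfl⟩
        exact ⟨mem_map.2 ⟨(a, γ), mem_product.2 ⟨ha, mem_univ _⟩, rfl⟩, by simp [proj]⟩
    rw [this, card_image_of_injective _ fun x y h => congrArg Prod.snd (e.injective h), card_univ]
  · intro E hE
    obtain ⟨F, hF, γ, rfl⟩ := mem_lifts.1 hE
    rw [proj_image_lift]
    exact hF
  · intro i _ F hF hiF
    refine ⟨lift e F (flipPerm L ((e.symm i).1, F) * (e.symm i).2),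
      ⟨mem_lifts.2 ⟨F, hF, _, rfl⟩, mem_lift.2 ⟨(e.symm i).1, hiF, ?_⟩, proj_image_lift⟩, ?_⟩
    · rw [← mul_assoc, flipPerm_mul_self, one_mul, Prod.mk.eta, Equiv.apply_symm_apply]
    · rintro E ⟨hE, hiE, hp⟩
      obtain ⟨F', hF', γ, rfl⟩ := mem_lifts.1 hE
      rw [proj_image_lift] at hp
      subst hp
      rw [lift_inj_of_mem hiE (mem_lift.2 ⟨(e.symm i).1, hiF,
        by rw [← mul_assoc, flipPerm_mul_self, one_mul, Prod.mk.eta, Equiv.apply_symm_apply]⟩)]
  · intro i hi
    obtain ⟨⟨x, γ⟩, -, rfl⟩ := mem_map.1 hi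
    exact htree_lifts hT le_rfl x γ

end Vale.Agent.P046.Full.Cover
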