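import Vale.Agent.P046.Full.ThreeBase

/-!
P046, the exact constant, late phase: points and hyperedges of balls of a 3-uniform hypergraph.
-/

namespace Vale.Agent.P046.Full.Cover

open Finset

variable {V : Type} [Fintype V] [DecidableEq V] {T : Finset (Finset V)} {a : V}

/-- The points of a ball. -/
abbrev hpts (T : Finset (Finset V)) (a : V) (R : ℕ) : Finset V := (hball T a R).1

/-- The hyperedges of a ball. -/
abbrev htris (T : Finset (Finset V)) (a : V) (R : ℕ) : Finset (Finset V) := (hball T a R).2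

lemma hpts_zero : hpts T a 0 = {a} := rfl

lemma htris_zero : htris T a 0 = ∅ := rfl

lemma hpts_succ (R : ℕ) :
    hpts T a (R + 1) = hpts T a R ∪ (htris T a (R + 1)).biUnion id := rfl

lemma mem_htris_succ {R : ℕ} {F : Finset V} :
    F ∈ htris T a (R + 1) ↔ F ∈ T ∧ ∃ b ∈ F, b ∈ hpts T a R := by
  simp [htris, hpts, hball, Finset.not_disjoint_iff]

lemma hpts_mono {R R' : ℕ} (h : R ≤ R') : hpts T a R ⊆ hpts T a R' := by
  induction h with
  | refl => exact Subset.refl _
  | step _ ih => exact ih.trans subset_union_left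

lemma htris_mono {R R' : ℕ} (h : R ≤ R') : htris T a R ⊆ htris T a R' := by
  induction h with
  | refl => exact Subset.refl _
  | @step m _ ih =>
    refine ih.trans fun F hF => ?_
    rcases m with _ | m
    · simp [htris_zero] at hF
    · obtain ⟨hT, b, hb, hb'⟩ := mem_htris_succ.1 hF
      exact mem_htris_succ.2 ⟨hT, b, hb, hpts_mono (Nat.le_succ m) hb'⟩

lemma subset_hpts_of_mem {R : ℕ} {F : Finset V} (hF : F ∈ htris T a R) : F ⊆ hpts T a R := by
  rcases R with _ | R
  · simp [htris_zero] at hF
  · rw [hpts_succ]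
    exact fun b hb => mem_union_right _ (mem_biUnion.2 ⟨F, hF, hb⟩)

lemma root_mem_hpts (R : ℕ) : a ∈ hpts T a R := hpts_mono (Nat.zero_le R) (by simp [hpts_zero])

lemma mem_hpts {R : ℕ} {b : V} :
    b ∈ hpts T a R ↔ b = a ∨ ∃ F ∈ htris T a R, b ∈ F := by
  constructor
  · induction R with
    | zero => exact fun hb => Or.inl (mem_singleton.1 hb)
    | succ R ih =>
      intro hb
      rw [hpts_succ, mem_union, mem_biUnion] at hb
      rcases hb with hb | ⟨F, hF, hb⟩
      · rcases ih hb with h | ⟨F, hF, hbF⟩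
        · exact Or.inl h
        · exact Or.inr ⟨F, htris_mono (Nat.le_succ R) hF, hbF⟩
      · exact Or.inr ⟨F, hF, hb⟩
  · rintro (rfl | ⟨F, hF, hb⟩)
    · exact root_mem_hpts R
    · exact subset_hpts_of_mem hF hb

end Vale.Agent.P046.Full.Cover
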