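import Vale.Agent.P046.Full.Cover.Ball

/-!
P046, the exact constant, late phase: connected sets grown from one point inside a ball that is a
hypertree. Every attached hyperedge brings two new points and no other hyperedge.
-/

namespace Vale.Agent.P046.Full.Cover

open Finset

set_option linter.unusedSectionVars false

variable {V : Type} [Fintype V] [DecidableEq V] {T : Finset (Finset V)} {a : V}

/-- Sets grown from `a` by `k` attachments of hyperedges. -/
inductive Grown (T : Finset (Finset V)) (a : V) : ℕ → Finset V → Prop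
  | zero : Grown T a 0 {a}
  | step {k : ℕ} {A F : Finset V} : Grown T a k A → F ∈ T → ¬Disjoint F A → ¬F ⊆ A →
      Grown T a (k + 1) (A ∪ F)

/-- The hyperedges inside a set. -/
def inner (T : Finset (Finset V)) (A : Finset V) : Finset (Finset V) := T.filter (fun F => F ⊆ A)

/-- The hyperedges meeting a set. -/
def meets (T : Finset (Finset V)) (A : Finset V) : Finset (Finset V) :=
  T.filter (fun F => ¬Disjoint F A)

variable {k R : ℕ} {A F : Finset V}

lemma Grown.root (h : Grown T a k A) : a ∈ A := by
  induction h with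
  | zero => exact mem_singleton_self a
  | step _ _ _ _ ih => exact mem_union_left _ ih

lemma Grown.subset_hpts (h : Grown T a k A) : A ⊆ hpts T a k := by
  induction h with
  | zero => exact Subset.refl _
  | @step k A F _ hF hd _ ih =>
    obtain ⟨b, hb, hbA⟩ := Finset.not_disjoint_iff.1 hd
    exact union_subset (ih.trans (hpts_mono (Nat.le_succ k)))
      (subset_hpts_of_mem (mem_htris_succ.2 ⟨hF, b, hb, ih hbA⟩))

lemma Grown.subset {U : Finset V} (h : Grown T a k A) (hU : ∀ F ∈ T, F ⊆ U) (ha : a ∈ U) :
    A ⊆ U := by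
  induction h with
  | zero => simpa using ha
  | step _ hF _ _ ih => exact union_subset ih (hU _ hF)

lemma card_union_le_two (h3 : F.card = 3) (hd : ¬Disjoint F A) :
    (A ∪ F).card ≤ A.card + 2 := by
  have h1 := card_union_add_card_inter A F
  have h2 : 1 ≤ (A ∩ F).card := by
    obtain ⟨b, hb, hbA⟩ := Finset.not_disjoint_iff.1 hd
    exact card_pos.2 ⟨b, mem_inter.2 ⟨hbA, hb⟩⟩
  omega

lemma Grown.card_le (h : Grown T a k A) (h3 : ∀ F ∈ T, F.card = 3) : A.card ≤ 2 * k + 1 := by
  induction h with
  | zero => simp
  | step _ hF hd _ ih =>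
    have := card_union_le_two (h3 _ hF) hd
    omega

lemma insert_inner_subset (hF : F ∈ T) : insert F (inner T A) ⊆ inner T (A ∪ F) := by
  intro E hE
  rcases mem_insert.1 hE with rfl | hE
  · exact mem_filter.2 ⟨hF, subset_union_right⟩
  · exact mem_filter.2 ⟨(mem_filter.1 hE).1, (mem_filter.1 hE).2.trans subset_union_left⟩

lemma Grown.le_inner (h : Grown T a k A) : k ≤ (inner T A).card := by
  induction h with
  | zero => exact Nat.zero_le _
  | @step k A F _ hF _ hn ih =>
    have h1 : F ∉ inner T A := fun hm => hn (mem_filter.1 hm).2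
    have h2 := card_le_card (insert_inner_subset (A := A) hF)
    rw [card_insert_of_notMem h1] at h2
    omega

/-- Completing a set to a ball adds at most two points for every further hyperedge. -/
lemma card_union_hpts_le (h3 : ∀ F ∈ T, F.card = 3) (ha : a ∈ A) (R : ℕ) :
    (A ∪ hpts T a R).card ≤ A.card + 2 * (htris T a R \ inner T A).card := by
  induction R with
  | zero =>
    rw [hpts_zero, union_eq_left.2 (singleton_subset_iff.2 ha)]
    exact Nat.le_add_right _ _
  | succ R ih =>
    set N := (htris T a (R + 1) \ inner T A) \ (htris T a R \ inner T A) with hN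
    have hsub : A ∪ hpts T a (R + 1) ⊆
        (A ∪ hpts T a R) ∪ N.biUnion (fun E => E \ hpts T a R) := by
      intro b hb
      by_contra hc
      simp only [mem_union, mem_biUnion, mem_sdiff, not_or, not_exists, not_and] at hc
      obtain ⟨⟨hcA, hcP⟩, hcN⟩ := hc
      rw [hpts_succ, mem_union, mem_union, mem_biUnion] at hb
      rcases hb with hb | hb | ⟨E, hE, hbE⟩
      · exact hcA hb
      · exact hcP hb
      · refine hcN E ?_ hbE hcP
        rw [hN, mem_sdiff, mem_sdiff, mem_sdiff]
        exact ⟨⟨hE, fun hi => hcA ((mem_filter.1 hi).2 hbE)⟩,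
          fun ho => hcP (subset_hpts_of_mem ho.1 hbE)⟩
    have hsum : (N.biUnion (fun E => E \ hpts T a R)).card ≤ 2 * N.card := by
      refine card_biUnion_le.trans ?_
      refine (sum_le_sum (g := fun _ => 2) fun E hE => ?_).trans
        (le_of_eq (by rw [sum_const, smul_eq_mul, mul_comm]))
      obtain ⟨hT, b, hb, hb'⟩ := mem_htris_succ.1 (mem_sdiff.1 (mem_sdiff.1 hE).1).1
      have h1 := card_sdiff_add_card_inter E (hpts T a R)
      have h2 : 1 ≤ (E ∩ hpts T a R).card := card_pos.2 ⟨b, mem_inter.2 ⟨hb, hb'⟩⟩
      have h4 := h3 E hT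
      omega
    have hcard : N.card + (htris T a R \ inner T A).card = (htris T a (R + 1) \ inner T A).card :=
      card_sdiff_add_card_eq_card (sdiff_subset_sdiff (htris_mono (Nat.le_succ R)) (Subset.refl _))
    have := (card_le_card hsub).trans (card_union_le _ _)
    omega

/-- In a hypertree ball a grown set has exactly the expected numbers of points and hyperedges. -/
lemma Grown.exact (h : Grown T a k A) (h3 : ∀ F ∈ T, F.card = 3) (ht : htree T R a)
    (hk : k + 1 ≤ R) : A.card = 2 * k + 1 ∧ (inner T A).card = k := by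
  have hsub : inner T A ⊆ htris T a R := fun E hE => by
    obtain ⟨hT, hEA⟩ := mem_filter.1 hE
    obtain ⟨b, hb⟩ : E.Nonempty := card_pos.1 (by rw [h3 E hT]; norm_num)
    exact htris_mono hk (mem_htris_succ.2 ⟨hT, b, hb, h.subset_hpts (hEA hb)⟩)
  have h1 := (card_le_card (subset_union_right (s₁ := A))).trans (card_union_hpts_le h3 h.root R)
  have h2 := card_sdiff_add_card_eq_card hsub
  have h4 : (hpts T a R).card = 2 * (htris T a R).card + 1 := ht
  have h5 := h.card_le h3
  have h6 := h.le_inner
  omega

/-- An attached hyperedge meets the set once and is the only new hyperedge. -/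
lemma Grown.attach (h : Grown T a k A) (h3 : ∀ F ∈ T, F.card = 3) (ht : htree T R a)
    (hk : k + 2 ≤ R) (hF : F ∈ T) (hd : ¬Disjoint F A) (hn : ¬F ⊆ A) :
    (F ∩ A).card = 1 ∧ inner T (A ∪ F) = insert F (inner T A) := by
  obtain ⟨hA, hi⟩ := h.exact h3 ht (by omega)
  obtain ⟨hA', hi'⟩ := (h.step hF hd hn).exact h3 ht (by omega)
  have h1 := card_union_add_card_inter A F
  rw [inter_comm A F] at h1
  have h4 := h3 F hF
  refine ⟨by omega, (eq_of_subset_of_card_le (insert_inner_subset hF) ?_).symm⟩
  have hni : F ∉ inner T A := fun hm => hn (mem_filter.1 hm).2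
  rw [card_insert_of_notMem hni]
  omega

end Vale.Agent.P046.Full.Cover
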