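import Vale.Agent.P046.Full.Cover.Grown

/-!
P046, the exact constant, late phase: the chance that a set is present and the product solution of
the same hierarchy of equations on grown sets.
-/

namespace Vale.Agent.P046.Full.Cover

open Finset

set_option linter.unusedSectionVars false

variable {V : Type} [Fintype V] [DecidableEq V] {T : Finset (Finset V)} {U A F : Finset V} {a : V}
  {J : V → Finset V → ℝ → ℝ} {k R : ℕ}

/-- The indicator that all of `A` is present. -/
noncomputable def indA (A : Finset V) (H : Finset V) : ℝ := if A ⊆ H then 1 else 0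

/-- The chance that `A` is present at time `s`. -/
noncomputable def present (T : Finset (Finset V)) (U A : Finset V) (s : ℝ) : ℝ :=
  semi (hstep T) s (indA A) U

/-- The incidences leaving `A`. -/
def outs (T : Finset (Finset V)) (A : Finset V) : Finset (V × Finset V) :=
  (A ×ˢ T).filter (fun p => p.1 ∈ p.2 ∧ ¬p.2 ⊆ A)

/-- The survival product over the incidences leaving `A`. -/
noncomputable def survival (T : Finset (Finset V)) (J : V → Finset V → ℝ → ℝ) (A : Finset V)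
    (s : ℝ) : ℝ :=
  ∏ p ∈ outs T A, (1 - J p.1 p.2 s)

/-- The product solution. -/
noncomputable def product (T : Finset (Finset V)) (J : V → Finset V → ℝ → ℝ) (A : Finset V)
    (s : ℝ) : ℝ :=
  Real.exp (-((inner T A).card : ℝ) * s) * survival T J A s

lemma gen_indA (A : Finset V) :
    gen (hstep T) (indA A) = -∑ F ∈ meets T A, indA (A ∪ F) := by
  funext H
  rw [gen_apply, Pi.neg_apply, Finset.sum_apply, ← Finset.sum_neg_distrib, meets, sum_filter,
    ← Finset.sum_coe_sort T]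
  refine Finset.sum_congr rfl fun ⟨F, hF⟩ _ => ?_
  simp only [hstep, indA]
  by_cases hFH : F ⊆ H
  · rw [if_pos hFH]
    by_cases hd : Disjoint F A
    · rw [if_neg (not_not.2 hd)]
      have : A ⊆ H \ F ↔ A ⊆ H := by
        rw [subset_sdiff]
        exact and_iff_left hd.symm
      simp [this]
    · rw [if_pos hd]
      have h1 : ¬A ⊆ H \ F := fun h => hd (subset_sdiff.1 h).2.symm
      have h2 : A ∪ F ⊆ H ↔ A ⊆ H := by
        rw [union_subset_iff]
        exact and_iff_left hFH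
      simp [h1, h2]
  · rw [if_neg hFH, sub_self]
    have h2 : ¬A ∪ F ⊆ H := fun h => hFH (subset_union_right.trans h)
    simp [h2]

lemma present_hasDerivAt (A : Finset V) (s : ℝ) :
    HasDerivAt (present T U A) (-∑ F ∈ meets T A, present T U (A ∪ F) s) s := by
  have h := semi_apply_hasDerivAt (hstep T) (indA A) U s
  rw [gen_indA, map_neg, map_sum, Pi.neg_apply, Finset.sum_apply] at h
  exact h

lemma present_zero (h : A ⊆ U) : present T U A 0 = 1 := by
  simp [present, semi_zero, indA, h]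

lemma present_mem (A : Finset V) {s : ℝ} (hs : 0 ≤ s) :
    0 ≤ present T U A s ∧ present T U A s ≤ 1 := by
  refine ⟨semi_nonneg _ hs (fun H => ?_) _, (le_abs_self _).trans
    (semi_abs_le _ hs (B := 1) (fun H => ?_) _)⟩ <;> unfold indA <;> split_ifs <;> norm_num

lemma hcav_mem (hJ : IsHCav T J) {s : ℝ} (hs : 0 ≤ s) (hF : F ∈ T) (ha : a ∈ F) :
    0 ≤ 1 - J a F s ∧ 1 - J a F s ≤ 1 := by
  obtain ⟨⟨h1, h2⟩, -⟩ := (hJ a F hF ha).2 s hs
  constructor <;> linarith [Real.exp_pos (-s)]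

lemma outs_mem {p : V × Finset V} (hp : p ∈ outs T A) :
    p.1 ∈ A ∧ p.2 ∈ T ∧ p.1 ∈ p.2 ∧ ¬p.2 ⊆ A := by
  obtain ⟨h1, h2⟩ := mem_filter.1 hp
  exact ⟨(mem_product.1 h1).1, (mem_product.1 h1).2, h2.1, h2.2⟩

lemma product_mem (hJ : IsHCav T J) {s : ℝ} (hs : 0 ≤ s) (A : Finset V) :
    0 ≤ product T J A s ∧ product T J A s ≤ 1 := by
  have h0 : 0 ≤ survival T J A s := prod_nonneg fun p hp =>
    (hcav_mem hJ hs (outs_mem hp).2.1 (outs_mem hp).2.2.1).1
  have h1 : survival T J A s ≤ 1 := prod_le_one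
    (fun p hp => (hcav_mem hJ hs (outs_mem hp).2.1 (outs_mem hp).2.2.1).1)
    (fun p hp => (hcav_mem hJ hs (outs_mem hp).2.1 (outs_mem hp).2.2.1).2)
  have he : Real.exp (-((inner T A).card : ℝ) * s) ≤ 1 :=
    Real.exp_le_one_iff.2 (by nlinarith [Nat.cast_nonneg (α := ℝ) (inner T A).card])
  exact ⟨mul_nonneg (Real.exp_pos _).le h0, mul_le_one₀ he h0 h1⟩

lemma product_zero (hJ : IsHCav T J) (A : Finset V) : product T J A 0 = 1 := by
  have h : survival T J A 0 = 1 := prod_eq_one fun p hp => by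
    rw [(hJ p.1 p.2 (outs_mem hp).2.1 (outs_mem hp).2.2.1).1, sub_zero]
  simp [product, h]

/-- The survival product after attaching the hyperedge of a leaving incidence. -/
lemma survival_attach (h3 : ∀ F ∈ T, F.card = 3) (ht : htree T R a) (hg : Grown T a k A)
    (hk : k + 2 ≤ R) {p : V × Finset V} (hp : p ∈ outs T A) (s : ℝ) :
    survival T J (A ∪ p.2) s = (∏ q ∈ (outs T A).erase p, (1 - J q.1 q.2 s)) *
      ∏ b ∈ p.2.erase p.1, hz T J b p.2 s := by
  classical
  obtain ⟨hpA, hpT, hpF, hn⟩ := outs_mem hp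
  have hd : ¬Disjoint p.2 A := Finset.not_disjoint_iff.2 ⟨p.1, hpF, hpA⟩
  obtain ⟨hone, hinner⟩ := hg.attach h3 ht hk hpT hd hn
  have hsub : ∀ E ∈ T, E ⊆ A ∪ p.2 ↔ E ⊆ A ∨ E = p.2 := fun E hE => by
    have := congrArg (fun S => E ∈ S) hinner
    simp only [inner, mem_filter, mem_insert, hE, true_and, eq_iff_iff] at this
    rw [this, or_comm]
  have hnotA : ∀ b ∈ p.2.erase p.1, b ∉ A := fun b hb hbA => by
    obtain ⟨c, hc⟩ := card_eq_one.1 hone
    have h1 : p.1 ∈ p.2 ∩ A := mem_inter.2 ⟨hpF, hpA⟩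
    have h2 : b ∈ p.2 ∩ A := mem_inter.2 ⟨(mem_erase.1 hb).2, hbA⟩
    rw [hc, mem_singleton] at h1 h2
    exact (mem_erase.1 hb).1 (h2.trans h1.symm)
  set N := (p.2.erase p.1 ×ˢ T).filter (fun q => q.1 ∈ q.2 ∧ q.2 ≠ p.2) with hN
  have hdisj : Disjoint ((outs T A).erase p) N := by
    rw [Finset.disjoint_left]
    intro q hq hqN
    exact hnotA q.1 (mem_product.1 (mem_filter.1 hqN).1).1 (outs_mem (mem_erase.1 hq).2).1
  have houts : outs T (A ∪ p.2) = (outs T A).erase p ∪ N := by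
    ext ⟨b, E⟩
    simp only [outs, hN, mem_filter, mem_product, mem_union, mem_erase]
    constructor
    · rintro ⟨⟨hb, hE⟩, hbE, hne⟩
      rw [hsub E hE, not_or] at hne
      by_cases hbA : b ∈ A
      · exact Or.inl ⟨fun he => hne.2 (congrArg Prod.snd he), ⟨hbA, hE⟩, hbE, hne.1⟩
      · exact Or.inr ⟨⟨⟨fun he => hbA (he ▸ hpA), hb.resolve_left hbA⟩, hE⟩, hbE, hne.2⟩
    · rintro (⟨hne, ⟨hb, hE⟩, hbE, hnA⟩ | ⟨⟨⟨hbp, hb⟩, hE⟩, hbE, hne⟩)
      · refine ⟨⟨Or.inl hb, hE⟩, hbE, ?_⟩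
        rw [hsub E hE, not_or]
        refine ⟨hnA, fun he => hne (Prod.ext ?_ he)⟩
        show b = p.1
        obtain ⟨c, hc⟩ := card_eq_one.1 hone
        have h1 : p.1 ∈ p.2 ∩ A := mem_inter.2 ⟨hpF, hpA⟩
        have h2 : b ∈ p.2 ∩ A := mem_inter.2 ⟨he ▸ hbE, hb⟩
        rw [hc, mem_singleton] at h1 h2
        exact h2.trans h1.symm
      · refine ⟨⟨Or.inr hb, hE⟩, hbE, ?_⟩
        rw [hsub E hE, not_or]
        exact ⟨fun hEA => hnotA b (mem_erase.2 ⟨hbp, hb⟩) (hEA hbE), hne⟩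
  have hprodN : ∏ q ∈ N, (1 - J q.1 q.2 s) = ∏ b ∈ p.2.erase p.1, hz T J b p.2 s := by
    simp only [hN, hz, prod_filter]
    exact Finset.prod_product _ _ _
  rw [survival, houts, prod_union hdisj, hprodN]

/-- The product solution solves the hierarchy on grown sets. -/
lemma product_hasDeriv (hJ : IsHCav T J) (h3 : ∀ F ∈ T, F.card = 3) (ht : htree T R a)
    (hg : Grown T a k A) (hk : k + 2 ≤ R) {s : ℝ} (hs : 0 ≤ s) :
    HasDerivWithinAt (product T J A) (-∑ F ∈ meets T A, product T J (A ∪ F) s) (Set.Ici 0) s := by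
  classical
  set J' : V × Finset V → ℝ := fun p => Real.exp (-s) * ∏ b ∈ p.2.erase p.1, hz T J b p.2 s with hJ'
  have hder : ∀ p ∈ outs T A,
      HasDerivWithinAt (fun u => 1 - J p.1 p.2 u) (-J' p) (Set.Ici 0) s := fun p hp =>
    ((hJ p.1 p.2 (outs_mem hp).2.1 (outs_mem hp).2.2.1).2 s hs).2.const_sub 1
  have h1 : HasDerivWithinAt (survival T J A)
      (∑ p ∈ outs T A, (∏ q ∈ (outs T A).erase p, (1 - J q.1 q.2 s)) • -J' p) (Set.Ici 0) s := by
    have := HasDerivWithinAt.fun_finsetProd hder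
    exact this
  have h2 : HasDerivWithinAt (fun u => Real.exp (-((inner T A).card : ℝ) * u))
      (Real.exp (-((inner T A).card : ℝ) * s) * (-((inner T A).card : ℝ))) (Set.Ici 0) s := by
    simpa using ((hasDerivAt_id s).const_mul (-((inner T A).card : ℝ))).exp.hasDerivWithinAt
  refine (h2.mul h1).congr_deriv ?_
  -- the hyperedges inside give the decay, the others match the leaving incidences
  have hin : inner T A ⊆ meets T A := fun E hE => by
    obtain ⟨hT, hEA⟩ := mem_filter.1 hE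
    obtain ⟨b, hb⟩ : E.Nonempty := card_pos.1 (by rw [h3 E hT]; norm_num)
    exact mem_filter.2 ⟨hT, Finset.not_disjoint_iff.2 ⟨b, hb, hEA hb⟩⟩
  have hinside : ∑ E ∈ inner T A, product T J (A ∪ E) s =
      ((inner T A).card : ℝ) * product T J A s := by
    rw [← nsmul_eq_mul, ← Finset.sum_const]
    exact Finset.sum_congr rfl fun E hE => by rw [union_eq_left.2 (mem_filter.1 hE).2]
  have hout : ∑ E ∈ meets T A \ inner T A, product T J (A ∪ E) s =
      ∑ p ∈ outs T A, product T J (A ∪ p.2) s := by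
    symm
    refine Finset.sum_bij (fun p _ => p.2) ?_ ?_ ?_ fun p _ => rfl
    · intro p hp
      obtain ⟨hpA, hpT, hpF, hn⟩ := outs_mem hp
      exact mem_sdiff.2 ⟨mem_filter.2 ⟨hpT, Finset.not_disjoint_iff.2 ⟨p.1, hpF, hpA⟩⟩,
        fun h => hn (mem_filter.1 h).2⟩
    · intro p hp p' hp' he
      obtain ⟨hpA, hpT, hpF, hn⟩ := outs_mem hp
      obtain ⟨hpA', -, hpF', -⟩ := outs_mem hp'
      obtain ⟨c, hc⟩ := card_eq_one.1
        (hg.attach h3 ht hk hpT (Finset.not_disjoint_iff.2 ⟨p.1, hpF, hpA⟩) hn).1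
      have e1 : p.1 ∈ p.2 ∩ A := mem_inter.2 ⟨hpF, hpA⟩
      have e2 : p'.1 ∈ p.2 ∩ A := mem_inter.2 ⟨he ▸ hpF', hpA'⟩
      rw [hc, mem_singleton] at e1 e2
      exact Prod.ext (e1.trans e2.symm) he
    · intro E hE
      obtain ⟨hm, hni⟩ := mem_sdiff.1 hE
      obtain ⟨hT, hd⟩ := mem_filter.1 hm
      obtain ⟨b, hb, hbA⟩ := Finset.not_disjoint_iff.1 hd
      exact ⟨(b, E), mem_filter.2 ⟨mem_product.2 ⟨hbA, hT⟩, hb,
        fun h => hni (mem_filter.2 ⟨hT, h⟩)⟩, rfl⟩
  rw [← sum_sdiff hin, hinside, hout]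
  have hterm : ∀ p ∈ outs T A, product T J (A ∪ p.2) s =
      Real.exp (-((inner T A).card : ℝ) * s) *
        ((∏ q ∈ (outs T A).erase p, (1 - J q.1 q.2 s)) * J' p) := fun p hp => by
    obtain ⟨hpA, hpT, hpF, hn⟩ := outs_mem hp
    have hni : p.2 ∉ inner T A := fun hm => hn (mem_filter.1 hm).2
    rw [product, survival_attach h3 ht hg hk hp,
      (hg.attach h3 ht hk hpT (Finset.not_disjoint_iff.2 ⟨p.1, hpF, hpA⟩) hn).2,
      card_insert_of_notMem hni, hJ']
    push_cast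
    rw [show (-(((inner T A).card : ℝ) + 1) * s) = -((inner T A).card : ℝ) * s + -s by ring,
      Real.exp_add]
    ring
  rw [Finset.sum_congr rfl hterm, ← Finset.mul_sum]
  simp only [smul_eq_mul, mul_neg, Finset.sum_neg_distrib, product]
  ring

/-- The hyperedges meeting a set are few. -/
lemma card_meets_le {Dm : ℕ} (hA : A ⊆ U) (hdeg : ∀ b ∈ U, hdeg T b ≤ Dm) :
    (meets T A).card ≤ A.card * Dm := by
  have h : meets T A ⊆ A.biUnion (fun b => T.filter (fun F => b ∈ F)) := fun E hE => by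
    obtain ⟨hT, hd⟩ := mem_filter.1 hE
    obtain ⟨b, hb, hbA⟩ := Finset.not_disjoint_iff.1 hd
    exact mem_biUnion.2 ⟨b, hbA, mem_filter.2 ⟨hT, hb⟩⟩
  refine (card_le_card h).trans (card_biUnion_le.trans ?_)
  refine (sum_le_sum fun b hb => hdeg b (hA hb)).trans (le_of_eq ?_)
  rw [sum_const, smul_eq_mul]

end Vale.Agent.P046.Full.Cover
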